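import Vale.Agent.P352X.R.EE.A
import Vale.Agent.P352Z.P352X.R.FAR

open Vale.Agent.P352G

/-!
# P352X, row EE, part A: product test functions, the defect of commutation
-/

set_option linter.all false

open MeasureTheory Filter Topology Set
open scoped SchwartzMap ComplexConjugate ContDiff

namespace Vale.Agent.P352X.EEZ

open Vale.Agent.P352 Vale.Agent.P352.GF Vale.Agent.P352.BW Vale.Agent.P352.H246
open Vale.Agent.P352.H496 Vale.Agent.P352.H755 Vale.Agent.P352.H15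
open UniformSpace (Completion)

noncomputable section

/-! ### test functions -/

variable {u u' : ℝ → ℝ} {v v' : R2 → ℝ} {ρ ρ' : ℝ → ℝ} {f g : Fn}

/-! ### distributions -/

section dis

variable {H : Type*} [NormedAddCommGroup H] [InnerProductSpace ℂ H] [CompleteSpace H]
  {φ : Fn → H}

end dis

variable {D : Type*} [NormedAddCommGroup D] [InnerProductSpace ℂ D] [GrD D] {c : CtxZ D}

/-- `T(h, k)(f) Ω` -/
def TT (c : CtxZ D) (h k : V) (f : Fn) : Completion D := c.Tv (hk h k f)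

lemma dis_T (h k : V) : _root_.Vale.Agent.P352X.EE.Dis (TT c h k) := fun f g a hf hg => by
  simp only [TT, Far.Tv_hkZ c h k hf, Far.Tv_hkZ c h k hg, Far.Tv_hkZ c h k (Ap.sw_lin a hf hg),
    c.Q.lin _ f g a _ (c.Q.bose_fld _ (c.hT.bose _ _)) hf hg, Completion.coe_add,
    Completion.coe_smul, smul_add, Finset.sum_add_distrib, Finset.smul_sum, smul_comm a]

lemma dis_l : _root_.Vale.Agent.P352X.EE.Dis c.l := c.hl.lin

lemma TT_symm (h k : V) (hf : IsTest f) : TT c h k f = TT c k h f := by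
  rw [TT, TT, Far.Tv_hkZ c h k hf, Far.Tv_hkZ c k h hf, Finset.sum_comm]
  refine Finset.sum_congr rfl fun m _ => Finset.sum_congr rfl fun n _ => ?_
  rw [c.hT.symm n m f _ hf, mul_comm]

lemma cons (G : GRPZ c) (h : V) (hu : Tst u) (hv : Tst v) (hρ : Tst ρ) :
    TT c va h (_root_.Vale.Agent.P352X.EE.tp u v (deriv ρ)) = TT c (ex 0) h (_root_.Vale.Agent.P352X.EE.tp u (_root_.Vale.Agent.P352X.EE.di 0 v) ρ) +
      TT c (ex 1) h (_root_.Vale.Agent.P352X.EE.tp u (_root_.Vale.Agent.P352X.EE.di 1 v) ρ) - TT c vb h (_root_.Vale.Agent.P352X.EE.tp (deriv u) v ρ) := by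
  have := congrArg (fun x : D => (x : Completion D)) (G.cons h _ c.Q.vac (_root_.Vale.Agent.P352X.EE.test_tp hu hv hρ))
  simp only [_root_.Vale.Agent.P352X.EE.dv_a hu hv hρ, _root_.Vale.Agent.P352X.EE.dv_b hu hv hρ, _root_.Vale.Agent.P352X.EE.dv_e _ hu hv hρ, Fin.sum_univ_two, Completion.coe_sub,
    Completion.coe_add, Completion.coe_zero] at this
  exact eq_sub_of_add_eq (sub_eq_zero.1 this)

lemma trace (G : GRPZ c) (hu : Tst u) (hv : Tst v) (hρ : Tst ρ) :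
    TT c (ex 0) (ex 0) (_root_.Vale.Agent.P352X.EE.tp u v ρ) + TT c (ex 1) (ex 1) (_root_.Vale.Agent.P352X.EE.tp u v ρ) =
      (2 : ℝ) • TT c va vb (_root_.Vale.Agent.P352X.EE.tp u v ρ) - (3 : ℝ) • ((2 : ℝ) • c.l (_root_.Vale.Agent.P352X.EE.tp (deriv u) v (deriv ρ)) -
        c.l (_root_.Vale.Agent.P352X.EE.tp u (_root_.Vale.Agent.P352X.EE.di 0 (_root_.Vale.Agent.P352X.EE.di 0 v)) ρ) - c.l (_root_.Vale.Agent.P352X.EE.tp u (_root_.Vale.Agent.P352X.EE.di 1 (_root_.Vale.Agent.P352X.EE.di 1 v)) ρ)) := by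
  have t := _root_.Vale.Agent.P352X.EE.test_tp hu hv hρ
  have t1 := _root_.Vale.Agent.P352X.EE.test_tp (_root_.Vale.Agent.P352X.EE.tst_d hu) hv (_root_.Vale.Agent.P352X.EE.tst_d hρ)
  have t2 := _root_.Vale.Agent.P352X.EE.test_tp hu (_root_.Vale.Agent.P352X.EE.tst_di 0 (_root_.Vale.Agent.P352X.EE.tst_di 0 hv)) hρ
  have h1 := congrArg (fun x : D => (x : Completion D)) (G.trace _ c.Q.vac t)
  have h2 := c.hl.trace _ t
  rw [_root_.Vale.Agent.P352X.EE.box_tp hu hv hρ, c.hl.lin _ _ _ (Ap.sw_lin _ (Ap.sw_cmul _ t1) t2)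
    (_root_.Vale.Agent.P352X.EE.test_tp hu (_root_.Vale.Agent.P352X.EE.tst_di 1 (_root_.Vale.Agent.P352X.EE.tst_di 1 hv)) hρ), c.hl.lin _ _ _ (Ap.sw_cmul _ t1) t2,
    dis_l.smul _ t1] at h2
  simp only [Fin.sum_univ_two, Completion.coe_sub, Completion.coe_add, Completion.coe_smul] at h1
  rw [← Complex.coe_smul, ← Complex.coe_smul, ← Complex.coe_smul]
  push_cast
  have h3 := h2.trans h1
  simp only [TT, CtxZ.Tv]
  linear_combination (norm := module) h3

/-! ### scaling -/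

lemma sc_T (G : GRPZ c) {h k : V} {α β L : ℝ} (hL : 0 < L)
    (e1 : scp L 1 h = (Real.sqrt L * α) • h) (e2 : scp L 1 k = (Real.sqrt L * β) • k)
    (hf : IsTest f) :
    Usc c.Q L 1 (TT c h k fun x => f (scp L 1 x)) = ((α * β : ℝ) : ℂ) • TT c h k f := by
  obtain ⟨hΛ, hs⟩ := G.lsc L 1 hL one_pos
  have hq : 0 < Real.sqrt (L * 1) := Real.sqrt_pos.2 (by positivity)
  have hq' : 0 < Real.sqrt L := Real.sqrt_pos.2 hL
  set Λ := bst va vb (Real.sqrt (L / 1) - 1) (Real.sqrt (1 / L) - 1)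
  have e : ∀ {h : V} {α : ℝ}, scp L 1 h = (Real.sqrt L * α) • h → sim 1 Λ 0 h = α • h :=
    fun {h α} e => smul_right_injective _ hq'.ne' (by
      beta_reduce
      rw [smul_smul, ← e, ← hs]
      funext n
      simp [sim])
  have := G.ten _ Λ 0 h k _ c.Q.vac hq hΛ hf
  simp only [hs] at this
  rw [e e1, e e2, c.Q.U_vac _ _ _ hq hΛ] at this
  rw [TT, CtxZ.Tv, Usc, G.coe _ _ _ _ hq hΛ, this]
  change c.Tv _ = _
  rw [TT, Far.Tv_hkZ c _ _ hf, Far.Tv_hkZ c _ _ hf, Finset.smul_sum]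
  refine Finset.sum_congr rfl fun m _ => ?_
  rw [Finset.smul_sum]
  refine Finset.sum_congr rfl fun n _ => ?_
  rw [smul_smul, ← Complex.ofReal_mul]
  congr 2
  simp only [Pi.smul_apply, smul_eq_mul]
  ring

lemma sc_l (G : GRPZ c) {L : ℝ} (hL : 0 < L) (hf : IsTest f) :
    Usc c.Q L 1 (c.l fun x => f (scp L 1 x)) = ((L⁻¹ : ℝ) : ℂ) • c.l f := by
  obtain ⟨hΛ, hs⟩ := G.lsc L 1 hL one_pos
  have := G.pot _ _ 0 f (Real.sqrt_pos.2 (by positivity : 0 < L * 1)) hΛ hf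
  simp only [hs] at this
  rw [Real.sq_sqrt (by positivity), mul_one L] at this
  rw [Usc, mul_one L, this, Complex.coe_smul]

/-- weak nullity of scaled product functions -/
lemma wn (G : GRPZ c) (B : BASZ c) {φ : Fn → Completion D} (h : _root_.Vale.Agent.P352X.EE.Dis φ)
    (p : ∀ f, IsTest f → inner ℂ c.Om (φ f) = 0) {a : ℝ → ℝ} (s : ∀ L > 0, ∀ f, IsTest f →
      Usc c.Q L 1 (φ fun x => f (scp L 1 x)) = (a L : ℂ) • φ f) (hu : Tst u) (hv : Tst v)
    (hρ : Tst ρ) {U : ℝ → ℝ → ℝ} {W : ℝ → R2 → ℝ} (e : ∀ L ≥ (1 : ℝ), ∀ t x,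
      U L t * W L x = a L * (u (t / L) * v ((Real.sqrt L)⁻¹ • x))) :
    WT atTop (fun L => φ (_root_.Vale.Agent.P352X.EE.tp (U L) (W L) ρ)) 0 := fun w => by
  have := (Complex.continuous_conj.tendsto _).comp (Far.wnZ G B (p _ (_root_.Vale.Agent.P352X.EE.test_tp hu hv hρ)) w)
  simp only [Function.comp_def, inner_conj_symm, map_zero] at this
  rw [inner_zero_right]
  refine this.congr' ?_
  filter_upwards [eventually_ge_atTop (1 : ℝ)] with L hL
  have L0 := one_pos.trans_le hL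
  have q := Real.sqrt_pos.2 L0
  have t : IsTest (pr (kL (k3 u v) L) ρ) :=
    Far.isTest_dc (Far.dc_pr (Far.tst_kL (Ap.cs_prod hu hv) L0) hρ)
  have e1 : (fun x => pr (kL (k3 u v) L) ρ (scp L 1 x)) = _root_.Vale.Agent.P352X.EE.tp u v ρ := by
    funext x
    simp only [pr, kL, k3, pl_1, pl_2, al_scp, be_scp, tx_scp, mul_one, one_mul, smul_smul, _root_.Vale.Agent.P352X.EE.tp_apply]
    rw [inv_mul_cancel₀ q.ne', one_smul, mul_div_cancel_left₀ _ L0.ne']
  rw [← e1, s L L0 _ t, ← h.smul _ t]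
  congr 2
  funext z
  simp only [_root_.Vale.Agent.P352X.EE.tp_apply, e L hL, pr, kL, k3, pl_1, pl_2]
  push_cast
  ring

/-! ### locality -/

/-- `Z` commutes with the algebra of a neighbourhood of `z`, in which the potential is local -/
def Sp (c : CtxZ D) (Z : Completion D →L[ℂ] Completion D) (z : V) : Prop := ∃ R ∈ 𝓝 z,
  Z ∈ (c.N R).commutant ∧ ∀ f, In R f → Pr (c.N R) c.Om (c.l f) (c.l (bar f))

variable {Z : Completion D →L[ℂ] Completion D}

lemma loc_l (hf : Dc f) (e : bar f = f) (h : ∀ z ∈ tsupport f, Sp c Z z) :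
    _root_.Vale.Agent.P352X.EE.lam (Z c.Om) (star Z c.Om) (c.l f) = 0 := by
  have := dis_l.loc (fun z hz => (h z hz).imp fun R k => ⟨k.1, _, k.2⟩) hf le_rfl
  rw [_root_.Vale.Agent.P352X.EE.lam_apply, this, e, sub_self]

lemma loc_T (G : GRPZ c) (a b : V) (hf : Dc f) (e : bar f = f) (h : ∀ z ∈ tsupport f, Sp c Z z) :
    _root_.Vale.Agent.P352X.EE.lam (Z c.Om) (star Z c.Om) (TT c a b f) = 0 := by
  have := (dis_T a b).loc (ξ := c.Om) (fun z hz => (h z hz).imp fun R k => ⟨k.1, _, k.2.1,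
    fun g hg => (Pr.of_afs (G.afft R (hk a b g) fun m n => ⟨Ap.sw_cmul _ hg.1, hg.2.1.mul_left,
      tsupport_mul_subset_right.trans hg.2.2⟩) c.Q.vac).cast rfl (by
        simp only [TT, CtxZ.Tv]
        congr 2
        funext m n z
        simp [hk, bar])⟩) hf le_rfl
  rw [_root_.Vale.Agent.P352X.EE.lam_apply, this, e, sub_self]

end

end Vale.Agent.P352X.EEZ
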