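import Vale.Agent.P352X.R.EE.G
import Vale.Agent.P352Z.P352X.R.EE.A

open Vale.Agent.P352G

/-!
# P352X, row EE, part G: geometry
-/

set_option linter.all false

open MeasureTheory Filter Topology Set
open scoped SchwartzMap ComplexConjugate ContDiff

namespace Vale.Agent.P352X.EEZ

open Vale.Agent.P352 Vale.Agent.P352.GF Vale.Agent.P352.BW Vale.Agent.P352.H246
open Vale.Agent.P352.H496 Vale.Agent.P352.H755 Vale.Agent.P352.H15
open Vale.Agent.P132 (jconj)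
open UniformSpace (Completion)

noncomputable section

variable {D : Type*} [NormedAddCommGroup D] [InnerProductSpace ℂ D] [GrD D] {c : CtxZ D}
  {X X' : Completion D →L[ℂ] Completion D} {O R : Set V} {n n' z z0 : V} {s t : ℝ} {w : R2}

/-- separation by a wedge -/
lemma comm_X (J : JCZ c) (eX : Ev X) (hX : X ∈ c.N O) (hn : IsNull n) (hn' : IsNull n') (h : 0 < mdot n n')
    (hO : ∀ z ∈ O, mdot n z < s ∧ t < mdot n' z) (hR : ∀ z ∈ R, mdot n' z < t ∧ s < mdot n z) :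
    X ∈ (c.N R).commutant := by
  obtain ⟨y, a, b⟩ := _root_.Vale.Agent.P352X.EE.ex_pt hn hn' h s t
  refine comm_anti (c.hN.mono R (Wdg n' n y) fun z hz => ?_) X ?_
  · simpa only [Wdg, mem_setOf_eq, md_sub, a, b, sub_neg, sub_pos] using hR z hz
  · rw [J.dualE n' n y hn' hn (md_comm n n' ▸ h) X eX]
    refine c.hN.mono O _ (fun z hz => ?_) X hX
    simpa only [Wdg, mem_setOf_eq, md_sub, a, b, sub_neg, sub_pos] using hO z hz

lemma comm_Y (J : JCZ c) (eX : Ev X) (hX : X ∈ c.N O) (hn : IsNull n) (hn' : IsNull n') (h : 0 < mdot n n')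
    (hO : ∀ z ∈ O, mdot n (jr z) < s ∧ t < mdot n' (jr z))
    (hR : ∀ z ∈ R, mdot n' z < t ∧ s < mdot n z) : jconj c.J X ∈ (c.N R).commutant := by
  obtain ⟨y, a, b⟩ := _root_.Vale.Agent.P352X.EE.ex_pt hn hn' h s t
  have e : ∀ z, z ∈ Wdg (-jr n') (-jr n) (jr y) ↔ mdot n (jr z) < s ∧ t < mdot n' (jr z) :=
    fun z => by
      simp only [Wdg, mem_setOf_eq, md_sub, _root_.Vale.Agent.P352X.EE.md_j, jr_jr, a, b, sub_neg, sub_pos, neg_lt_neg_iff,
        and_comm]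
  have k := J.algE _ _ (jr y) (_root_.Vale.Agent.P352X.EE.null_j hn') (_root_.Vale.Agent.P352X.EE.null_j hn)
    (by rwa [md_neg, md_neg_l, neg_neg, md_jr, md_comm]) X
    (c.hN.mono O _ (fun z hz => (e z).2 (hO z hz)) X hX) eX
  refine comm_X J k.2 k.1 hn hn' h ?_ hR
  rintro _ ⟨z, hz, rfl⟩
  exact (e z).1 hz

/-- a cut cone through a given point -/
lemma cone (dd : DDZ c) (z0 : V) (w : R2) : ∃ R ∈ 𝓝 z0,
    (∀ f, In R f → Pr (c.N R) c.Om (c.l f) (c.l (bar f))) ∧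
      ∀ z ∈ R, mdot (_root_.Vale.Agent.P352X.EE.nv w) z < mdot (_root_.Vale.Agent.P352X.EE.nv w) z0 + 1 ∧ al z0 - 1 < al z ∧ be z0 - 2 < be z := by
  have w0 := d2_nonneg w
  set δ := (1 + d2 w w)⁻¹ with hδ
  have d0 : 0 < δ := by positivity
  have d1 : δ + δ * d2 w w = 1 := by rw [← mul_one_add, inv_mul_cancel₀ (by positivity)]
  have e : mdot (_root_.Vale.Agent.P352X.EE.nv w) vb = 1 := by simp [_root_.Vale.Agent.P352X.EE.md_nv]
  refine ⟨{z | z - (z0 - δ • _root_.Vale.Agent.P352X.EE.nv w + vb) ∈ HM.Rg (_root_.Vale.Agent.P352X.EE.nv w) vb (1 / 4)}, IsOpen.mem_nhds ?_ ?_,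
    fun f => dd _ _ _ _ f (_root_.Vale.Agent.P352X.EE.null_nv w) null_vb e (by norm_num), fun z hz => ?_⟩
  · simp only [HM.Rg, mem_setOf_eq, setOf_and]
    refine IsOpen.inter ?_ (IsOpen.inter ?_ ?_) <;> exact isOpen_lt (by fun_prop) (by fun_prop)
  · have e' : z0 - (z0 - δ • _root_.Vale.Agent.P352X.EE.nv w + vb) = δ • _root_.Vale.Agent.P352X.EE.nv w - vb := by abel
    rw [mem_setOf_eq, e']
    simp only [mem_setOf_eq, HM.Rg, md_sub, md_sub_l, md_smul, md_smul_l, (_root_.Vale.Agent.P352X.EE.null_nv w).1, e,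
      md_comm vb (_root_.Vale.Agent.P352X.EE.nv w), null_vb.1]
    refine ⟨by norm_num, by norm_num, by linarith⟩
  · obtain ⟨a, b, k⟩ := hz
    set ζ := z - (z0 - δ • _root_.Vale.Agent.P352X.EE.nv w + vb) with hζ
    have h := _root_.Vale.Agent.P352X.EE.fut (z := ζ + (2 : ℝ) • vb) (w := w) (by
      simp only [mu, md_add, md_add_l, md_smul, md_smul_l, null_vb.1, md_comm ζ vb]
      linarith) (by
      rw [md_add, md_smul, e]
      linarith)
    rw [hζ, md_sub, md_add, md_sub, md_smul, (_root_.Vale.Agent.P352X.EE.null_nv w).1, e] at a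
    simp only [hζ, _root_.Vale.Agent.P352X.EE.nv, al_add, al_sub, al_smul, al_vb, al_pt, be_add, be_sub, be_smul, be_vb,
      be_pt] at h
    have := mul_nonneg d0.le w0
    exact ⟨by linarith, by linarith, by linarith⟩

variable {u A L : ℝ}

lemma sp_of (J : JCZ c) (dd : DDZ c) (eX : Ev X) (eX' : Ev X') (hA : 2 * u + 10 ≤ A) (hX : X ∈ c.N (dc (pt (3 * A) (-A) 0) 1))
    (hX' : X' ∈ c.N (dc (pt A (-A) 0) 1)) (h1 : |be z0| ≤ u) (h2 : -1 / 2 ≤ al z0)
    (hw : 0 < d2 w w) (h : ∀ z, z ∈ _root_.Vale.Agent.P352X.EE.Bx (3 * A) (-A) ∨ z ∈ _root_.Vale.Agent.P352X.EE.Bx (-A) A →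
      mdot (_root_.Vale.Agent.P352X.EE.nv w) z0 + 1 < mdot (_root_.Vale.Agent.P352X.EE.nv w) z) : Sp c (jconj c.J X' * X) z0 := by
  obtain ⟨R, a, b, k⟩ := cone dd z0 w
  have u0 := (abs_nonneg _).trans h1
  have h3 := (abs_le.1 h1).1
  refine ⟨R, a, mul_mem (comm_Y J eX' hX' null_vb (_root_.Vale.Agent.P352X.EE.null_nv w) (by simp [md_vb, _root_.Vale.Agent.P352X.EE.nv]) (s := al z0 - 1)
    (fun z hz => ⟨?_, h _ (.inr ?_)⟩) fun z hz => ⟨(k z hz).1, (k z hz).2.1⟩)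
    (comm_X J eX hX null_va (_root_.Vale.Agent.P352X.EE.null_nv w) (by simpa [md_va, _root_.Vale.Agent.P352X.EE.nv] using hw) (s := be z0 - 2)
    (fun z hz => ⟨?_, h z (.inl (_root_.Vale.Agent.P352X.EE.dc_Bx' hz))⟩) fun z hz => ⟨(k z hz).1, (k z hz).2.2⟩), b⟩
  · have := (abs_le.1 (_root_.Vale.Agent.P352X.EE.dc_Bx' hz).1).1
    rw [md_vb, al_jr]
    linarith
  · obtain ⟨b1, b2, b3⟩ := _root_.Vale.Agent.P352X.EE.dc_Bx' hz
    exact ⟨by rwa [al_jr, neg_sub_neg, abs_sub_comm], by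
      rwa [be_jr, ← neg_add', abs_neg, ← sub_neg_eq_add], by rwa [tx_jr]⟩
  · have := (abs_le.1 (_root_.Vale.Agent.P352X.EE.dc_Bx' hz).2.1).2
    rw [md_va]
    linarith

lemma sp (J : JCZ c) (dd : DDZ c) (eX : Ev X) (eX' : Ev X') (hA : 2 * u + 10 ≤ A) (hX : X ∈ c.N (dc (pt (3 * A) (-A) 0) 1))
    (hX' : X' ∈ c.N (dc (pt A (-A) 0) 1)) (hL : A + 1 ≤ L) (h1 : |be z0| ≤ u)
    (h2 : _root_.Vale.Agent.P352X.EE.Gm A L (al z0) (tx z0)) : Sp c (jconj c.J X' * X) z0 := by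
  have u0 := (abs_nonneg _).trans h1
  have h3 := (abs_le.1 h1).2
  rcases h2 with h2 | ⟨h2, h4, h5⟩
  · obtain ⟨h4, h5⟩ := abs_le.1 h2
    obtain ⟨σ, s1, s2⟩ : ∃ σ : ℝ, σ * σ = 1 ∧ 0 ≤ σ * tx z0 0 := (le_total 0 (tx z0 0)).elim
      (fun h => ⟨1, by norm_num, by linarith⟩) fun h => ⟨-1, by norm_num, by linarith⟩
    have e : d2 (σ • e2 0) (σ • e2 0) = 1 := by simp [d2_smul, d2_smul_l, s1]
    refine sp_of J dd eX eX' hA hX hX' h1 (by linarith) (w := σ • e2 0) (by rw [e]; exact one_pos)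
      fun z hz => ?_
    rw [_root_.Vale.Agent.P352X.EE.md_nv, _root_.Vale.Agent.P352X.EE.md_nv, e, d2_smul_l, d2_smul_l, d2_e2_l, d2_e2_l]
    have q : d2 (tx z) (tx z) ≤ 4 → σ * tx z 0 ≤ 2 := fun h => by
      have := (sq_le_d2 (tx z) 0).trans h
      nlinarith [sq_nonneg (σ * tx z 0 - 2)]
    rcases hz with ⟨b1, b2, b3⟩ | ⟨b1, b2, b3⟩
    all_goals
      have b4 := (abs_le.1 b1).1
      have b5 := (abs_le.1 b2).1
      have b6 := q b3
      linarith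
  · have L0 : 0 < L := by linarith
    have A0 : 0 < A := by linarith
    set x := tx z0
    have x0 : 0 < d2 x x := lt_of_lt_of_le (by positivity) h5
    set τ := (4 * L)⁻¹
    have t0 : 0 < τ := by positivity
    have t1 : τ * L = 1 / 4 := by
      simp only [τ]
      field_simp
    refine sp_of J dd eX eX' hA hX hX' h1 h2 (w := τ • x) (by rw [d2_smul, d2_smul_l]; positivity)
      fun z hz => ?_
    have b : -A - 1 / 2 ≤ al z ∧ -A - 1 ≤ be z ∧ d2 (tx z) (tx z) ≤ 4 := by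
      rcases hz with ⟨b1, b2, b3⟩ | ⟨b1, b2, b3⟩
      all_goals exact ⟨by linarith [(abs_le.1 b1).1], by linarith [(abs_le.1 b2).1], b3⟩
    obtain ⟨b1, b2, b3⟩ := b
    rw [_root_.Vale.Agent.P352X.EE.md_nv, _root_.Vale.Agent.P352X.EE.md_nv, d2_smul, d2_smul_l, d2_smul_l]
    have c1 : d2 x (tx z) ≤ d2 x x / 4 + 4 := by
      have := d2_nonneg (x - (2 : ℝ) • tx z)
      simp only [d2_sub, d2_sub_l, d2_smul, d2_smul_l, d2_comm (tx z) x] at this
      linarith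
    have c2 : τ * (al z0 - al z) ≤ 3 / 4 :=
      (mul_le_mul_of_nonneg_left (by linarith : al z0 - al z ≤ 3 * L) t0.le).trans_eq
        (by linarith)
    have c3 : 8 * A ≤ τ * d2 x x := by
      have := mul_le_mul_of_nonneg_left h5 t0.le
      nlinarith
    have c4 := mul_le_mul_of_nonneg_left c2 (mul_pos t0 x0).le
    have c5 := mul_le_mul_of_nonneg_left c1 t0.le
    have c6 : τ ≤ 1 / 4 := by nlinarith
    nlinarith

end

end Vale.Agent.P352X.EEZ
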