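import Vale.Agent.P352X.R.EE.F
import Vale.Agent.P352Z.P352X.R.EE.B

open Vale.Agent.P352G

/-!
# P352X, row EE, part F: the Ward identity for `P_b`, and the key identity
-/

set_option linter.all false

open MeasureTheory Filter Topology Set
open scoped SchwartzMap ComplexConjugate ContDiff

namespace Vale.Agent.P352X.EEZ

open Vale.Agent.P352 Vale.Agent.P352.GF Vale.Agent.P352.BW Vale.Agent.P352.H246
open Vale.Agent.P352.H496 Vale.Agent.P352.H755 Vale.Agent.P352.H15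
open Vale.Agent.P132 (jconj)
open UniformSpace (Completion)

noncomputable section

variable {D : Type*} [NormedAddCommGroup D] [InnerProductSpace ℂ D] [GrD D] {c : CtxZ D}
  {X X' : Completion D →L[ℂ] Completion D} {u0 A L t : ℝ} {R : ℝ → ℝ} {k : Completion D}

theorem ward (T : T2Z c) (eX : Ev X) (eX' : Ev X') (h0 : 0 ≤ u0) (hA : 2 * u0 + 10 ≤ A)
    (hX : X ∈ c.N (dc (pt (3 * A) (-A) 0) 1)) (hX' : X' ∈ c.N (dc (pt A (-A) 0) 1))
    (hk : Gn (Pb c.Q) (X c.Om) k) (hR : ContDiff ℝ ∞ R) (R0 : ∀ t ≤ -u0, R t = 0)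
    (R1 : ∀ t ≥ u0, R t = 1) :
    Tendsto (fun L => _root_.Vale.Agent.P352X.EE.lam ((jconj c.J X' * X) c.Om) (star (jconj c.J X' * X) c.Om)
      (TT c va vb (_root_.Vale.Agent.P352X.EE.tp (_root_.Vale.Agent.P352X.EE.uL L) (_root_.Vale.Agent.P352X.EE.vL (32 * A * L)) (deriv R)))) atTop
      (𝓝 (-inner ℂ (star (jconj c.J X') c.Om) k)) := by
  have A0 : 0 < A := by linarith
  have ts : Tst fun t => (1 - R t) * _root_.Vale.Agent.P352X.EE.sg u0 A t := Ap.cs_mul_l (contDiff_const.sub hR) _root_.Vale.Agent.P352X.EE.tst_sg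
  have f := nul_f (Z := jconj c.J X' * X) T.grp T.bas (ad_T T.grp (fun _ => _root_.Vale.Agent.P352X.EE.sc_b) fun _ => _root_.Vale.Agent.P352X.EE.sc_b) ts
    (W := fun L => _root_.Vale.Agent.P352X.EE.vL (32 * A * L)) (_root_.Vale.Agent.P352X.EE.tst_vL (M := 32 * A) (by positivity)) fun L hL x => by
      rw [_root_.Vale.Agent.P352X.EE.vL_sc hL, ← mul_inv, Real.mul_self_sqrt hL.le]
  have w : ∀ z, z ∈ Wdg va vb (pt (-1) (u0 + 2) 0) ↔ be z < u0 + 2 ∧ -1 < al z := fun z => by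
    simp only [Wdg, mem_setOf_eq, md_va, md_vb, be_sub, al_sub, be_pt, al_pt, sub_neg, sub_pos]
  have s : dc (pt (3 * A) (-A) 0) 1 ⊆ Wdg va vb (pt (-1) (u0 + 2) 0) := fun z hz => (w z).2
    ⟨by linarith [(abs_le.1 (_root_.Vale.Agent.P352X.EE.dc_Bx' hz).2.1).2], by linarith [(abs_le.1 (_root_.Vale.Agent.P352X.EE.dc_Bx' hz).1).1]⟩
  have y := comm_Y T.jc eX' hX' null_vb null_va (by simp [md_vb]) (s := -1) (t := u0 + 2)
    (fun z hz => by
      rw [md_va, md_vb, al_jr, be_jr]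
      exact ⟨by linarith [(abs_le.1 (_root_.Vale.Agent.P352X.EE.dc_Bx' hz).1).1], by linarith [(abs_le.1 (_root_.Vale.Agent.P352X.EE.dc_Bx' hz).2.1).2]⟩)
    fun z hz => (w z).1 hz
  have := f.sub_const (inner ℂ (star (jconj c.J X') c.Om) k)
  rw [zero_sub] at this
  refine this.congr' ?_
  filter_upwards [eventually_ge_atTop (4 * A)] with L hL
  have L0 : 0 < L := by linarith
  have tv : Tst (_root_.Vale.Agent.P352X.EE.vL (32 * A * L)) := _root_.Vale.Agent.P352X.EE.tst_vL (by positivity)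
  have t1 := _root_.Vale.Agent.P352X.EE.test_tp (_root_.Vale.Agent.P352X.EE.tst_uL L0) tv (_root_.Vale.Agent.P352X.EE.tst_dR hR R0 R1)
  have t2 := _root_.Vale.Agent.P352X.EE.test_tp (_root_.Vale.Agent.P352X.EE.tst_fL L0) tv ts
  have p := T.f2 _ 1 va vb _ _ _ (fun _ => GF.one) (fun e => e • vb) (fun _ => vb) X k one_pos
    null_va null_vb (by simp [md_va]) hX eX (_root_.Vale.Agent.P352X.EE.chg h0 hA hL hR R0 R1) s
    ((Ap.tsupp_sub (K := {z | be z ≤ u0 + 1 ∧ -1 / 2 ≤ al z})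
      ((isClosed_le cont_be continuous_const).inter (isClosed_le continuous_const cont_al))
      fun z h => ⟨not_lt.1 fun k => right_ne_zero_of_mul h (_root_.Vale.Agent.P352X.EE.sg0 k), (_root_.Vale.Agent.P352X.EE.uL_ne (by linarith)
        (left_ne_zero_of_mul (left_ne_zero_of_mul h))).1⟩).trans fun z h => (w z).2
      ⟨by linarith [h.1], by linarith [h.2]⟩) rfl (zero_smul _ _) (fun _ => H496.isLor_one)
    (fun n z => by
      simpa [sim, GF.one, bas] using (hasDerivAt_id (0 : ℝ)).mul_const (vb n)) hk _ y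
  have e : c.Tv (dens (_root_.Vale.Agent.P352X.EE.ch u0 A L) (_root_.Vale.Agent.P352X.EE.Xi R L) fun _ => vb) =
      TT c va vb (_root_.Vale.Agent.P352X.EE.tp (_root_.Vale.Agent.P352X.EE.uL L) (_root_.Vale.Agent.P352X.EE.vL (32 * A * L)) (deriv R)) -
        TT c vb vb (_root_.Vale.Agent.P352X.EE.tp (_root_.Vale.Agent.P352X.EE.fL L) (_root_.Vale.Agent.P352X.EE.vL (32 * A * L)) fun t => (1 - R t) * _root_.Vale.Agent.P352X.EE.sg u0 A t) := by
    have q := fun m n => (congrArg (fun f => c.T m n f c.Q.vac)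
      (_root_.Vale.Agent.P352X.EE.dens_eq h0 hA hL hR R0 R1 m n)).trans (c.Q.lin _ _ _ _ _ (c.Q.bose_fld _ (c.hT.bose m n))
        (Ap.sw_cmul _ t1) (Ap.sw_cmul _ t2))
    simp only [TT, CtxZ.Tv, CtxZ.Tf, q, neg_smul, one_smul, ← sub_eq_add_neg, Finset.sum_sub_distrib,
      Completion.coe_sub]
  rw [inner_add_right, star_inner X, comm_apply (c.hN.mono _ _ s X hX) y, ← star_inner X] at p
  rw [eq_sub_iff_add_eq.1 e |>.symm, map_add, _root_.Vale.Agent.P352X.EE.lam_apply _ _ (c.Tv _), star_mul,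
    ContinuousLinearMap.mul_apply, ContinuousLinearMap.mul_apply, ← p]
  ring

theorem key (T : T2Z c) (bb : BBZ c) (dd : DDZ c) (eX : Ev X) (eX' : Ev X') (h0 : 0 ≤ u0) (hA : 2 * u0 + 10 ≤ A)
    (hX : X ∈ c.N (dc (pt (3 * A) (-A) 0) 1)) (gX : c.Good X)
    (hX' : X' ∈ c.N (dc (pt A (-A) 0) 1)) (gX' : c.Good X')
    (hk : Gn (Pb c.Q) (X c.Om) k) (hR : ContDiff ℝ ∞ R) (R0 : ∀ t ≤ -u0, R t = 0)
    (R1 : ∀ t ≥ u0, R t = 1) :
    ∫ u, ((deriv (deriv (deriv R)) u : ℝ) : ℂ) * inner ℂ (star (jconj c.J X') c.Om)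
      (gen (c.Ky (u • vb)) (X c.Om)) = 4 * inner ℂ (star (jconj c.J X') c.Om) k := by
  have A0 : 0 < A := by linarith
  have t1 := _root_.Vale.Agent.P352X.EE.tst_dR hR R0 R1
  have t3 := _root_.Vale.Agent.P352X.EE.tst_d (_root_.Vale.Agent.P352X.EE.tst_d t1)
  have s1 : tsupport (deriv R) ⊆ Icc (-u0) u0 := Ap.tsupp_sub isClosed_Icc (_root_.Vale.Agent.P352X.EE.dR R0 R1)
  have tk : Tst fun t => _root_.Vale.Agent.P352X.EE.kp t * _root_.Vale.Agent.P352X.EE.kp (-t) := _root_.Vale.Agent.P352X.EE.tst_of (by fun_prop) (-2) 2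
    (fun t h => by rw [_root_.Vale.Agent.P352X.EE.kp0 (t := -t) (by linarith), mul_zero]) fun t h => by rw [_root_.Vale.Agent.P352X.EE.kp0 h.le, zero_mul]
  have t0 : Tst (_root_.Vale.Agent.P352X.EE.vL (32 * A)) := _root_.Vale.Agent.P352X.EE.tst_vL (by positivity)
  have b := bb (u0 + 1) 1 _ 1 _ 1 X X' _root_.Vale.Agent.P352X.EE.chi (k3 (fun t => _root_.Vale.Agent.P352X.EE.kp t * _root_.Vale.Agent.P352X.EE.kp (-t)) (_root_.Vale.Agent.P352X.EE.vL (32 * A))) _ 0 one_pos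
    one_pos one_pos (fun z hz => ⟨by linarith [(abs_le.1 (_root_.Vale.Agent.P352X.EE.dc_Bx' hz).2.1).2],
      by linarith [(abs_le.1 (_root_.Vale.Agent.P352X.EE.dc_Bx' hz).1).1]⟩) (fun z hz => ⟨by
      linarith [(abs_le.1 (_root_.Vale.Agent.P352X.EE.dc_Bx' hz).2.1).2], by linarith [(abs_le.1 (_root_.Vale.Agent.P352X.EE.dc_Bx' hz).1).1]⟩)
    hX gX hX' gX' eX eX' _root_.Vale.Agent.P352X.EE.sm_chi (fun _ => _root_.Vale.Agent.P352X.EE.chi0) (fun _ => _root_.Vale.Agent.P352X.EE.chi1) ⟨Ap.cs_prod tk t0, by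
      filter_upwards [continuous_fst.continuousAt.eventually (Ioo_mem_nhds neg_one_lt_zero one_pos),
        (by fun_prop : Continuous fun y : P3 => d2 y.2 y.2).continuousAt.eventually
        (eventually_lt_nhds (b := 32 * A) (by simpa using A0))] with y y1 y2
      rw [k3, _root_.Vale.Agent.P352X.EE.kp1 y1.2.le, _root_.Vale.Agent.P352X.EE.kp1 (by linarith [y1.1]), _root_.Vale.Agent.P352X.EE.vL1 (by positivity) y2]
      norm_num⟩ t3 ((tsupport_deriv_subset.trans (tsupport_deriv_subset.trans s1)).trans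
      (Icc_subset_Ioo (by linarith) (by linarith)))
  simp only [tv_zero, zero_add, sub_zero] at b
  have w := (wn T.grp T.bas (dis_T va va) (fun _ => Far.perp_TvZ T.grp va va)
    (fun L hL _ => sc_T T.grp hL (_root_.Vale.Agent.P352X.EE.sc_a hL) (_root_.Vale.Agent.P352X.EE.sc_a hL)) tk (_root_.Vale.Agent.P352X.EE.tst_q t0) t3
    (U := fun L t => _root_.Vale.Agent.P352X.EE.kp (t / L) * _root_.Vale.Agent.P352X.EE.kp (-(t / L))) (W := fun L x => d2 x x * _root_.Vale.Agent.P352X.EE.vL (32 * A * L) x)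
    fun L hL t x => by
      have L0 := one_pos.trans_le hL
      rw [_root_.Vale.Agent.P352X.EE.vL_sc L0, d2_smul, d2_smul_l, ← mul_assoc _ _ (d2 x x), ← mul_inv,
        Real.mul_self_sqrt L0.le]
      field_simp) (star (jconj c.J X' * X) c.Om)
  have := (w.sub (nul_main T.grp T.bas (fun L hL z => sp T.jc dd eX eX' hA hX hX' hL) A0 t1 s1)).sub
    ((ward T eX eX' h0 hA hX hX' hk hR R0 R1).const_smul (4 : ℝ))
  refine tendsto_nhds_unique_of_eventuallyEq b (this.trans_eq ?_) ?_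
  · simp
  filter_upwards [eventually_ge_atTop (1 : ℝ)] with L hL
  have L0 := one_pos.trans_le hL
  have tv := _root_.Vale.Agent.P352X.EE.tst_q (_root_.Vale.Agent.P352X.EE.tst_vL (M := 32 * A * L) (by positivity))
  have e0 : ∀ t, _root_.Vale.Agent.P352X.EE.chi t * (_root_.Vale.Agent.P352X.EE.kp (t / L) * _root_.Vale.Agent.P352X.EE.kp (-(t / L))) = _root_.Vale.Agent.P352X.EE.uL L t := fun t => by
    rcases le_total t (-1 / 2) with h | h
    · rw [_root_.Vale.Agent.P352X.EE.uL, _root_.Vale.Agent.P352X.EE.chi0 h, zero_mul, zero_mul]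
    · rw [_root_.Vale.Agent.P352X.EE.uL, _root_.Vale.Agent.P352X.EE.kp1 (t := -(t / L)) (neg_le.1 ((le_div_iff₀ L0).2 (by linarith))), mul_one]
  have tkL : Tst fun t => _root_.Vale.Agent.P352X.EE.kp (t / L) * _root_.Vale.Agent.P352X.EE.kp (-(t / L)) := by
    simpa only [smul_eq_mul, div_eq_inv_mul] using! Ap.cs_smul (inv_ne_zero L0.ne') tk
  have e1 := (dis_T (c := c) va va).tp (U := fun t => (1 - _root_.Vale.Agent.P352X.EE.chi t) * (_root_.Vale.Agent.P352X.EE.kp (t / L) * _root_.Vale.Agent.P352X.EE.kp (-(t / L))))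
    (W := fun x => d2 x x * _root_.Vale.Agent.P352X.EE.vL (32 * A * L) x) (-1) tkL tv (_root_.Vale.Agent.P352X.EE.tst_uL L0) tv t3 fun t x => by
      rw [← e0]; ring
  rw [neg_one_smul, ← sub_eq_add_neg] at e1
  rw [sub_sub, ← map_smul, ← map_add, sub_add_cancel, _root_.Vale.Agent.P352X.EE.lam_apply, ← sub_add, add_comm,
    ← inner_sub_right, ← e1, star_mul, ContinuousLinearMap.mul_apply, ContinuousLinearMap.mul_apply]
  unfold CtxZ.om2
  congr 3 <;> funext m n z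
  · simp only [bar, P352X.hk, pr, kL, k3, _root_.Vale.Agent.P352X.EE.tp_apply, pl_1, pl_2, _root_.Vale.Agent.P352X.EE.vL_sc L0, ← e0, star_mul',
      Complex.star_def, Complex.conj_ofReal]
    push_cast
    ring
  · simp only [P352X.hk, pr, kL, k3, _root_.Vale.Agent.P352X.EE.tp_apply, pl_1, pl_2, _root_.Vale.Agent.P352X.EE.vL_sc L0]
    push_cast
    ring

end

end Vale.Agent.P352X.EEZ
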