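import Vale.Agent.P352G87.EEt
import Vale.Agent.P352G2.Kit
import Vale.Agent.P352Z.P352X.R.CONK.Kp

/-!
# P352X, row EE, part T: from the even vectors to all vectors
-/

set_option linter.all false

open MeasureTheory Filter Topology Set
open scoped SchwartzMap ComplexConjugate ContDiff

namespace Vale.Agent.P352X.EEZ

open Vale.Agent.P352G
open Vale.Agent.P352 Vale.Agent.P352.GF Vale.Agent.P352.BW Vale.Agent.P352.H246
open Vale.Agent.P352.H496 Vale.Agent.P352.H755 Vale.Agent.P352.H15
open UniformSpace (Completion)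

noncomputable section

variable {D : Type*} [NormedAddCommGroup D] [InnerProductSpace ℂ D] [GrD D] {c : CtxZ D}

theorem good_c1Z (g : GRPZ c) {X : Completion D →L[ℂ] Completion D} (h : c.Good X) :
    C1 (Bo c.Q) X ∧ C1 (Pb c.Q) X := by
  have d := (h.differentiable (by simp))
  constructor
  · have := (d _).comp (0 : ℝ) (f := fun t : ℝ => ((t, 0, 0) : ℝ × ℝ × ℝ)) (by fun_prop)
    simpa only [Function.comp_def, neg_zero, g.ugPb.zero', g.ugGb.zero', mul_one] using! this
  · have := (d _).comp (0 : ℝ) (f := fun t : ℝ => ((0, t, 0) : ℝ × ℝ × ℝ)) (by fun_prop)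
    simpa only [Function.comp_def, neg_zero, g.ugB.zero', g.ugGb.zero', mul_one, one_mul]
      using! this

theorem tri_all (g : GRPZ c) (bas : BASZ c) (kd : KDZ c)
    (gd : ∀ y r, 0 < r → Dense {z | ∃ X ∈ c.N (dc y r), c.Good X ∧ X c.Om = z})
    (cy : ∀ y, Dense {z | ∃ Y ∈ (c.N (Wdg va vb y)).commutant, Y c.Om = z})
    {Γ : Completion D →L[ℂ] Completion D} (g2 : Γ * Γ = 1) (gs : star Γ = Γ) (gv : Γ c.Om = c.Om)
    (gam : ∀ O, ∀ X ∈ c.N O, Γ * X * Γ ∈ c.N O)
    (gU : ∀ s L a, Γ * Ug c.Q s L a = Ug c.Q s L a * Γ) {u0 p : ℝ} {a u : Fin 3 → ℝ}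
    (hu : ∀ i, u i ∈ Ioo (-u0) u0)
    (ev : ∀ ψ, Γ ψ = ψ → (∀ i, Dm (c.Ky (u i • vb)) ψ) → Dm (Pb c.Q) ψ →
      ∑ i, (a i : ℂ) • gen (c.Ky (u i • vb)) ψ = (p : ℂ) • gen (Pb c.Q) ψ)
    {ψ : Completion D} (hK : ∀ i, Dm (c.Ky (u i • vb)) ψ) (hP : Dm (Pb c.Q) ψ) :
    ∑ i, (a i : ℂ) • gen (c.Ky (u i • vb)) ψ = (p : ℂ) • gen (Pb c.Q) ψ := by
  have k0 : 0 < u0 := by linarith [(hu 0).1, (hu 0).2]
  set A := 2 * u0 + 10
  have sub : dc (pt (3 * A) (-A) 0) 1 ⊆ {z | be z < -(u0 + 1) ∧ 1 < al z} := fun z hz => by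
    obtain ⟨b1, b2, -⟩ := EE.dc_Bx' hz
    exact ⟨by linarith [(abs_le.1 b2).2], by linarith [(abs_le.1 b1).1]⟩
  obtain ⟨r0, p0, q⟩ := CK.Kp.ex_cone one_pos sub 0
  simp only [tv_zero, zero_add] at q
  let O : Set V := {z | ∀ i, z + -(u i • vb) ∈ Rc r0 0}
  have oW : ∀ z ∈ O, be z < u0 ∧ 0 < al z := fun z hz => by
    have := rc_al p0.le (hz 0)
    simp only [be_add, be_neg, be_smul, be_vb, al_add, al_neg, al_smul, al_vb] at this
    exact ⟨by linarith [(hu 0).2], by linarith⟩
  have sb : ∀ r t : ℝ, scp r 1 (t • vb) = t • vb := fun r t => null_ext (by simp) (by simp) (by simp)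
  have S : Sf2 (c.N O) (c.N (Wdg va vb ((u0 + 1) • vb))) c.Om Γ (Bo c.Q) (Pb c.Q)
      (fun r => Usc c.Q r 1) fun i => c.Ky (u i • vb) :=
    { g2 := g2
      gs := gs
      gv := gv
      gam := gam O
      sub := c.N_mono fun z hz => wdg_of (by linarith [(oW z hz).1]) (oW z hz).2
      uB := g.ugB
      uP := g.ugPb
      uK := fun i => g.ugKy _
      vB := fun t => g.vac _ _ _
      vP := fun t => g.vac _ _ _
      vK := fun i t => by
        simp only [CtxZ.Ky, ContinuousLinearMap.mul_apply, Ut, g.vac, c.K_vac]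
      gB := fun t => gU _ _ _
      gP := fun t => gU _ _ _
      uni := fun r _ => g.uni _ _ _
      vac := fun r _ => g.vac _ _ _
      gU := fun r _ => gU _ _ _
      UB := fun r hr t => by
        rw [Bo, ← g.sc _ _ _ _ hr one_pos (Real.exp_pos _) (Real.exp_pos _),
          ← g.sc _ _ _ _ (Real.exp_pos _) (Real.exp_pos _) hr one_pos, mul_comm r, mul_comm 1]
      UP := fun r hr t => by rw [Pb, g.sc_ut _ _ _ hr one_pos, sb]
      UK := fun r hr i t => by
        have e := g.sc_S r 1 t hr one_pos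
        rw [div_one] at e
        rw [CtxZ.Ky, ← mul_assoc, ← mul_assoc, g.sc_ut _ _ _ hr one_pos, sb, mul_assoc (Ut _ _), e,
          ← mul_assoc, mul_assoc _ (Usc _ _ _), g.sc_ut _ _ _ hr one_pos, ← neg_smul, sb,
          ← mul_assoc]
      cj := fun r hr X hX => by
        refine g.mem_ug hX 0 (Real.sqrt_pos.2 (mul_pos hr one_pos)) (g.lsc r 1 hr one_pos).1 ?_
        simp only [(g.lsc r 1 hr one_pos).2]
        exact fun z hz i => by rw [scp_b]; exact rc_scp hr (hz i)
      wn := fun η w h => by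
        have := bas.wn ℝ atTop (fun r => max r 1) (fun _ => 1) (fun _ => 0) (fun _ => η) η w
          (fun r => ⟨one_pos.trans_le (le_max_right _ _), one_pos⟩)
          (.inl (tendsto_atTop_mono (fun r => le_max_left r 1) tendsto_id)) tendsto_const_nhds h
        refine this.congr' ?_
        filter_upwards [eventually_ge_atTop 1] with r hr
        rw [max_eq_left hr, g.ut0, ContinuousLinearMap.one_apply]
      nv := (Completion.norm_coe _).trans c.Q.norm_vac
      dz := cy _
      da := (gd _ 1 one_pos).mono fun z k => k.elim fun X k => ⟨X, c.N_mono (fun z hz i =>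
        q (u i) ⟨by linarith [(hu i).1], by linarith [(hu i).2]⟩ z hz) X k.1, good_c1Z g k.2.1, k.2.2⟩
      lK := fun i X hX => by
        filter_upwards [self_mem_nhdsWithin] with t (ht : 0 ≤ t)
        have m1 := g.mem_ut (O' := Rc r0 0) hX (-(u i • vb)) fun z hz => hz i
        have m2 := (g.geo r0 (r0 + t) _ p0.le (by linarith)).1 m1
        have m3 := g.mem_ut (O' := Wdg va vb ((u0 + 1) • vb)) m2 (u i • vb) fun z hz => by
          have := rc_al (by linarith) hz
          exact wdg_of (by simp only [be_add, be_smul, be_vb]; linarith [(hu i).2, this.1])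
            (by simpa using this.2)
        rw [add_sub_cancel_left, sub_add_cancel_left, neg_neg] at m3
        simpa only [CtxZ.Ky, mul_assoc] using! m3
      lP := fun X hX => by
        filter_upwards [mem_nhdsWithin_of_mem_nhds (Iio_mem_nhds one_pos)] with t (ht : t < 1)
        have := g.mem_ut (O' := Wdg va vb ((u0 + 1) • vb)) hX (t • vb) fun z hz =>
          wdg_of (by simp only [be_add, be_smul, be_vb]; linarith [(oW z hz).1])
            (by simpa using (oW z hz).2)
        rwa [← neg_smul] at this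
      dom := fun i X hX v1 v2 => by
        obtain ⟨C, hC⟩ := kd.a r0 p0
        have := CK.Kp.gn_splitZ g 0 (u i) v2.gn v1.gn
        simp only [tv_zero, zero_add] at this
        exact (g.dm_Ky _).2 (hC _ _ (g.pr_ut (.of_mem hX) _ fun z hz => hz i) this.dm).1 }
  exact S.all a p ev hK hP

end

end Vale.Agent.P352X.EEZ
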